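import Vale.Agent.P237.Petty.Cor.Few.Data

/-!
# P237: the field for the orders from twelve to sixteen
-/

namespace Vale.Agent.P237.Petty.Cor.Few

/-- The field on `15 ≤ M ≤ 19`. -/
def data14 : Data where
  lo := 15
  hi := 19
  nu0 := (161, 125)
  nu1 := (101, 2000)
  b0 := (-103, 1000)
  b1 := (123, 10000)
  bm := (261, 250)
  k0 := (597, 500)
  k1 := (-127, 5000)
  g := (38, 25)
  d1 := (127, 200)
  w0 := (41, 10)
  v0 := (2, 1)
  lv := (1386, 1000)
  lam := (8, 1)
  ell := (3, 2)
  zc := (1, 17)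
  a i := [(30513, 1000000), (-788683, 1000000), (175353, 25000), (2371, 125), (4391, 500),
    (2, 1), (1497, 100000), (-16479, 12500), (180747, 10000)].getD i (0, 1)

end Vale.Agent.P237.Petty.Cor.Few
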